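import Mathlib

/-!
# P347: integrals against a measure with a square integrable density
-/

open MeasureTheory Real
open scoped ENNReal

namespace Vale.Agent.P347.Quarter

/-- If `D` is a density with second moment at most `1 + v`, expectations move by at most
`√v` times the `L²` norm. -/
theorem chi_pair {Z : Type*} [MeasurableSpace Z] {S : Measure Z} [IsProbabilityMeasure S]
    {D : Z → ℝ≥0∞} (hD : Measurable D) (h1 : ∫⁻ z, D z ∂S = 1) {v : ℝ} (hv : 0 ≤ v)
    (h2 : ∫⁻ z, D z ^ 2 ∂S ≤ ENNReal.ofReal (1 + v)) {f : Z → ℝ} (hf : MemLp f 2 S) :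
    Integrable f (S.withDensity D) ∧
      |(∫ z, f z ∂S.withDensity D) - ∫ z, f z ∂S| ≤ √v * √(∫ z, f z ^ 2 ∂S) := by
  have hlt : ∀ᵐ z ∂S, D z < ∞ := ae_lt_top hD (by simp [h1])
  set D' : Z → ℝ := fun z => (D z).toReal with hD'
  have hm : Measurable D' := hD.ennreal_toReal
  have hsq : Integrable (fun z => D' z ^ 2) S := by
    refine ⟨(hm.pow_const 2).aestronglyMeasurable, ?_⟩
    rw [hasFiniteIntegral_iff_ofReal (ae_of_all _ fun z => sq_nonneg _)]
    refine lt_of_le_of_lt (lintegral_mono fun z => ?_) (h2.trans_lt ENNReal.ofReal_lt_top)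
    rw [hD', ENNReal.ofReal_pow ENNReal.toReal_nonneg]
    exact pow_le_pow_left' ENNReal.ofReal_toReal_le 2
  have hL : MemLp D' 2 S := (memLp_two_iff_integrable_sq hm.aestronglyMeasurable).2 hsq
  have hI : Integrable D' S := hL.integrable one_le_two
  have hI1 : ∫ z, D' z ∂S = 1 := by
    rw [hD', integral_toReal hD.aemeasurable hlt, h1, ENNReal.toReal_one]
  have hI2 : ∫ z, D' z ^ 2 ∂S ≤ 1 + v := by
    rw [integral_eq_lintegral_of_nonneg_ae (ae_of_all _ fun z => sq_nonneg _) hsq.1]
    refine ENNReal.toReal_le_of_le_ofReal (by linarith) (le_trans (lintegral_mono fun z => ?_) h2)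
    rw [hD', ENNReal.ofReal_pow ENNReal.toReal_nonneg]
    exact pow_le_pow_left' ENNReal.ofReal_toReal_le 2
  have hfd : Integrable (fun z => D' z * f z) S := hL.integrable_mul hf
  refine ⟨?_, ?_⟩
  · rw [integrable_withDensity_iff_integrable_smul' hD hlt]
    exact hfd
  rw [integral_withDensity_eq_integral_toReal_smul hD hlt]
  simp only [smul_eq_mul]
  rw [← integral_sub hfd (hf.integrable one_le_two)]
  have hg : MemLp (fun z => D' z - 1) 2 S := hL.sub (memLp_const 1)
  have hg2 : ∫ z, (D' z - 1) ^ 2 ∂S ≤ v := by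
    simp only [sub_sq, mul_one, one_pow]
    have e1 : Integrable (fun z => D' z ^ 2 - 2 * D' z) S := hsq.sub (hI.const_mul 2)
    rw [integral_add e1 (integrable_const _), integral_sub hsq (hI.const_mul 2), integral_const_mul, hI1]
    simp
    linarith
  have h := integral_mul_le_Lp_mul_Lq_of_nonneg (μ := S) (f := fun z => |D' z - 1|)
    (g := fun z => |f z|) Real.HolderConjugate.two_two (ae_of_all _ fun z => abs_nonneg _)
    (ae_of_all _ fun z => abs_nonneg _) (by simpa using hg.norm) (by simpa using hf.norm)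
  refine abs_integral_le_integral_abs.trans (le_trans (le_of_eq ?_) (h.trans ?_))
  · exact integral_congr_ae (ae_of_all _ fun z => by simp [hD', ← abs_mul, sub_mul])
  · simp only [Real.rpow_two, sq_abs, ← Real.sqrt_eq_rpow]
    gcongr

end Vale.Agent.P347.Quarter
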