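import Vale.Agent.P347.Quarter.Gauss

/-!
# P347: shifts of a Gaussian vector and exponential moments of random shifts
-/

open MeasureTheory ProbabilityTheory Real
open scoped ENNReal RealInnerProductSpace

namespace Vale.Agent.P347.Quarter

variable {ι : Type} [Fintype ι] {d : ℕ}

lemma lintegral_gd_exp_inner (u : Sp d) :
    ∫⁻ g, ENNReal.ofReal (exp ⟪u, g⟫) ∂gd d = ENNReal.ofReal (exp (‖u‖ ^ 2 / 2)) := by
  have h := lintegral_exp_dual (innerSL ℝ u)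
  simp at h
  exact h

lemma integral_gd_exp_inner (u : Sp d) : ∫ g, exp ⟪u, g⟫ ∂gd d = exp (‖u‖ ^ 2 / 2) := by
  rw [integral_eq_lintegral_of_nonneg_ae (ae_of_all _ fun g => (exp_pos _).le)
    (by fun_prop : Continuous _).aestronglyMeasurable, lintegral_gd_exp_inner,
    ENNReal.toReal_ofReal (exp_pos _).le]

/-- A shift of a Gaussian vector is a change of density. -/
lemma lintegral_gd_shift (u : Sp d) {F : Sp d → ℝ≥0∞} (hF : Measurable F) :
    ∫⁻ g, F (g + u) ∂gd d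
      = ∫⁻ g, ENNReal.ofReal (exp (⟪u, g⟫ - ‖u‖ ^ 2 / 2)) * F g ∂gd d := by
  rw [← lintegral_map (g := fun g => g + u) hF (by fun_prop), gauss_translate, lintegral_tilted]
  simp only [integral_gd_exp_inner, exp_sub]

lemma norm_le_of_fderiv_le {P Q : Type*} [NormedAddCommGroup P] [NormedSpace ℝ P]
    [NormedAddCommGroup Q] [NormedSpace ℝ Q] {f : P → Q} (hf : Differentiable ℝ f) {L : ℝ}
    (hL : ∀ x, ‖fderiv ℝ f x‖ ≤ L) (x : P) : ‖f x‖ ≤ ‖f 0‖ + L * ‖x‖ := by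
  have h := convex_univ.norm_image_sub_le_of_norm_fderiv_le (f := f) (fun y _ => hf y)
    (fun y _ => hL y) (Set.mem_univ (0:P)) (Set.mem_univ x)
  rw [sub_zero] at h
  linarith [norm_sub_norm_le (f x) (f 0)]

/-- Lipschitz fields are square integrable. -/
lemma memLp_two_of_fderiv_le {Q : Type*} [NormedAddCommGroup Q] [NormedSpace ℝ Q]
    [MeasurableSpace Q] [BorelSpace Q] [SecondCountableTopology Q] {f : Eu ι → Q}
    (hf : Differentiable ℝ f) {L : ℝ} (hL : ∀ x, ‖fderiv ℝ f x‖ ≤ L) : MemLp f 2 (gam ι) := by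
  have h1 : MemLp (fun x : Eu ι => ‖f 0‖ + L * ‖x‖) 2 (gam ι) :=
    (memLp_const ‖f 0‖).add ((IsGaussian.memLp_two_id (μ := stdGaussian (Eu ι))).norm.const_mul L)
  exact h1.of_le hf.continuous.aestronglyMeasurable (ae_of_all _ fun x =>
    (norm_le_of_fderiv_le hf hL x).trans (le_abs_self _))

/-- The centred part of a Lipschitz field grows linearly. -/
lemma norm_sub_mean_le {F : Eu ι → Sp d} (hF : Differentiable ℝ F) {L : ℝ} (hL0 : 0 ≤ L)
    (hL : ∀ x, ‖fderiv ℝ F x‖ ≤ L) (x : Eu ι) :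
    ‖F x - ∫ y, F y ∂gam ι‖ ≤ L * (‖x‖ + √(Fintype.card ι)) := by
  have hFi : Integrable F (gam ι) := (memLp_two_of_fderiv_le hF hL).integrable one_le_two
  have hn : Integrable (fun y : Eu ι => ‖y‖) (gam ι) :=
    (IsGaussian.integrable_id (μ := stdGaussian (Eu ι))).norm
  have hn2 := integral_norm_sq (ι := ι)
  have hmean : ∫ y : Eu ι, ‖y‖ ∂gam ι ≤ √(Fintype.card ι) := by
    refine le_sqrt_of_sq_le ?_
    have hv := variance_nonneg (fun y : Eu ι => ‖y‖) (gam ι)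
    rw [variance_eq_sub (show MemLp (fun y : Eu ι => ‖y‖) 2 (gam ι) from
      (IsGaussian.memLp_two_id (μ := stdGaussian (Eu ι))).norm)] at hv
    simp only [Pi.pow_apply, hn2.2] at hv
    linarith
  have e : F x - ∫ y, F y ∂gam ι = ∫ y, (F x - F y) ∂gam ι := by
    rw [integral_sub (integrable_const _) hFi]; simp
  rw [e]
  refine (norm_integral_le_integral_norm _).trans ?_
  calc ∫ y, ‖F x - F y‖ ∂gam ι ≤ ∫ y, L * (‖x‖ + ‖y‖) ∂gam ι :=
        integral_mono ((integrable_const _).sub hFi).norm (((integrable_const _).add hn).const_mul L)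
          fun y => ((convex_univ.norm_image_sub_le_of_norm_fderiv_le (fun z _ => hF z)
            (fun z _ => hL z) (Set.mem_univ y) (Set.mem_univ x))).trans
            (mul_le_mul_of_nonneg_left (norm_sub_le _ _) hL0)
    _ ≤ L * (‖x‖ + √(Fintype.card ι)) := by
        rw [integral_const_mul, integral_add (integrable_const _) hn]
        simp
        gcongr

/-- The exponential moment of the inner product of two copies of a random shift. -/
lemma lintegral_exp_pair {F : Eu ι → Sp d} (hF : ContDiff ℝ 1 F) {L : ℝ} (hL0 : 0 ≤ L)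
    (hL : ∀ x, ‖fderiv ℝ F x‖ ≤ L) (hL1 : 48 * π ^ 2 * L ^ 2 ≤ 1) (hL2 : 256 * π ^ 2 * L ^ 4 ≤ 1) :
    ∫⁻ y, ∫⁻ x, ENNReal.ofReal (exp (8 * ⟪F x, F y⟫)) ∂gam ι ∂gam ι
      ≤ ENNReal.ofReal (exp (9 * ‖∫ x, F x ∂gam ι‖ ^ 2 + 192 * π ^ 2 * L ^ 4 * Fintype.card ι)) := by
  have hd := hF.differentiable one_ne_zero
  have hFi : Integrable F (gam ι) := (memLp_two_of_fderiv_le hd hL).integrable one_le_two
  set μ₀ := ∫ x, F x ∂gam ι with hμ
  set n : ℝ := (Fintype.card ι : ℝ)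
  have hn : 0 ≤ n := Nat.cast_nonneg _
  have hlin : ∀ v : Sp d, Integrable (fun x => exp (8 * ⟪F x, v⟫)) (gam ι) ∧
      ∫ x, exp (8 * ⟪F x, v⟫) ∂gam ι ≤ exp (8 * ⟪μ₀, v⟫ + 8 * π ^ 2 * L ^ 2 * ‖v‖ ^ 2) := by
    intro v
    set f : Eu ι → ℝ := fun x => 8 * ⟪F x, v⟫ with hfdef
    have hf' : ∀ x, HasFDerivAt f ((8:ℝ) • (innerSL ℝ v).comp (fderiv ℝ F x)) x := fun x => by
      have := (((innerSL ℝ v).hasFDerivAt.comp x (hd x).hasFDerivAt)).const_mul (8:ℝ)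
      refine this.congr_of_eventuallyEq (Filter.Eventually.of_forall fun y => ?_)
      simp [hfdef, real_inner_comm]
    have hfn : ∀ x, ‖fderiv ℝ f x‖ ≤ 8 * (‖v‖ * L) := fun x => by
      rw [(hf' x).fderiv, norm_smul, Real.norm_eq_abs, abs_of_pos (by norm_num : (0:ℝ) < 8)]
      gcongr
      refine (ContinuousLinearMap.opNorm_comp_le _ _).trans ?_
      rw [innerSL_apply_norm]
      exact mul_le_mul_of_nonneg_left (hL x) (norm_nonneg v)
    obtain ⟨hfi, hei, hle⟩ := lip_exp (contDiff_const.mul (hF.inner ℝ contDiff_const)) hfn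
    refine ⟨hei, ?_⟩
    have hmean : ∫ x, f x ∂gam ι = 8 * ⟪μ₀, v⟫ := by
      simp only [hfdef, integral_const_mul, real_inner_comm v, integral_inner hFi, ← hμ]
    rw [hmean] at hle
    simp only [exp_sub, integral_div, div_le_iff₀ (exp_pos _)] at hle
    refine hle.trans (le_of_eq ?_)
    rw [← exp_add]
    ring_nf
  have hμlin : Integrable (fun y => exp (2 * (8 * ⟪μ₀, F y - μ₀⟫))) (gam ι) ∧
      ∫ y, exp (2 * (8 * ⟪μ₀, F y - μ₀⟫)) ∂gam ι ≤ exp (32 * π ^ 2 * L ^ 2 * ‖μ₀‖ ^ 2) := by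
    obtain ⟨hi, hle⟩ := hlin ((2:ℝ) • μ₀)
    have e : ∀ y, exp (2 * (8 * ⟪μ₀, F y - μ₀⟫))
        = exp (8 * ⟪F y, (2:ℝ) • μ₀⟫) / exp (8 * ⟪μ₀, (2:ℝ) • μ₀⟫) := fun y => by
      rw [← exp_sub, inner_sub_right, real_inner_smul_right, real_inner_smul_right, real_inner_comm μ₀ (F y)]
      ring_nf
    simp only [e]
    refine ⟨hi.div_const _, ?_⟩
    rw [integral_div, div_le_iff₀ (exp_pos _), ← exp_add]
    refine hle.trans (le_of_eq ?_)
    rw [norm_smul, Real.norm_two]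
    ring_nf
  have hsq : Integrable (fun y => exp (64 * π ^ 2 * L ^ 4 * ‖y‖ ^ 2)) (gam ι) ∧
      ∫ y, exp (64 * π ^ 2 * L ^ 4 * ‖y‖ ^ 2) ∂gam ι ≤ exp (2 * (64 * π ^ 2 * L ^ 4) * n) :=
    integral_exp_norm_sq (by positivity) (by linarith)
  set a := 8 * ‖μ₀‖ ^ 2 + 16 * π ^ 2 * L ^ 2 * ‖μ₀‖ ^ 2 with ha
  have hbnd : ∀ y, ∫⁻ x, ENNReal.ofReal (exp (8 * ⟪F x, F y⟫)) ∂gam ι
      ≤ ENNReal.ofReal (exp a * ((exp (2 * (8 * ⟪μ₀, F y - μ₀⟫))
          + exp (64 * π ^ 2 * L ^ 4 * n) * exp (64 * π ^ 2 * L ^ 4 * ‖y‖ ^ 2)) / 2)) := by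
    intro y
    obtain ⟨hi, hle⟩ := hlin (F y)
    rw [← ofReal_integral_eq_lintegral_ofReal hi (ae_of_all _ fun x => (exp_pos _).le)]
    refine ENNReal.ofReal_le_ofReal (hle.trans ?_)
    have h1 : ‖F y - μ₀‖ ^ 2 ≤ 2 * L ^ 2 * (‖y‖ ^ 2 + n) := by
      refine (pow_le_pow_left₀ (norm_nonneg _) (norm_sub_mean_le hd hL0 hL y) 2).trans ?_
      rw [mul_pow]
      nlinarith [sq_nonneg (‖y‖ - √n), Real.sq_sqrt hn, sq_nonneg L]
    have h2 : ‖F y‖ ^ 2 ≤ 2 * ‖μ₀‖ ^ 2 + 2 * ‖F y - μ₀‖ ^ 2 := by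
      have := norm_add_le μ₀ (F y - μ₀)
      rw [add_sub_cancel] at this
      nlinarith [sq_nonneg (‖μ₀‖ - ‖F y - μ₀‖), norm_nonneg (F y)]
    have h3 : ⟪μ₀, F y⟫ = ‖μ₀‖ ^ 2 + ⟪μ₀, F y - μ₀⟫ := by
      rw [inner_sub_right, real_inner_self_eq_norm_sq]; ring
    have h4 : 8 * ⟪μ₀, F y⟫ + 8 * π ^ 2 * L ^ 2 * ‖F y‖ ^ 2
        ≤ a + (8 * ⟪μ₀, F y - μ₀⟫ + 32 * π ^ 2 * L ^ 4 * (‖y‖ ^ 2 + n)) := by
      have := mul_le_mul_of_nonneg_left (h2.trans (by gcongr : _ ≤ 2 * ‖μ₀‖ ^ 2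
        + 2 * (2 * L ^ 2 * (‖y‖ ^ 2 + n)))) (by positivity : 0 ≤ 8 * π ^ 2 * L ^ 2)
      rw [h3, ha]
      linarith
    refine (exp_le_exp.2 h4).trans ?_
    rw [exp_add]
    gcongr
    set u := exp (8 * ⟪μ₀, F y - μ₀⟫)
    set w := exp (32 * π ^ 2 * L ^ 4 * (‖y‖ ^ 2 + n))
    have e1 : exp (2 * (8 * ⟪μ₀, F y - μ₀⟫)) = u ^ 2 := by rw [← exp_nat_mul]; norm_num
    have e2 : exp (64 * π ^ 2 * L ^ 4 * n) * exp (64 * π ^ 2 * L ^ 4 * ‖y‖ ^ 2) = w ^ 2 := by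
      rw [← exp_add, ← exp_nat_mul]; push_cast; ring_nf
    rw [exp_add, e1, e2]
    nlinarith [sq_nonneg (u - w)]
  refine (lintegral_mono hbnd).trans ?_
  have hI : Integrable (fun y => exp a * ((exp (2 * (8 * ⟪μ₀, F y - μ₀⟫))
      + exp (64 * π ^ 2 * L ^ 4 * n) * exp (64 * π ^ 2 * L ^ 4 * ‖y‖ ^ 2)) / 2)) (gam ι) :=
    ((hμlin.1.add (hsq.1.const_mul _)).div_const 2).const_mul _
  rw [← ofReal_integral_eq_lintegral_ofReal hI
    (ae_of_all _ fun y => by positivity), integral_const_mul, integral_div,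
    integral_add hμlin.1 (hsq.1.const_mul _), integral_const_mul]
  refine ENNReal.ofReal_le_ofReal ?_
  set b := 32 * π ^ 2 * L ^ 2 * ‖μ₀‖ ^ 2
  set c := 192 * π ^ 2 * L ^ 4 * n
  have hb0 : 0 ≤ b := by positivity
  have hc0 : 0 ≤ c := by positivity
  calc exp a * (((∫ y, exp (2 * (8 * ⟪μ₀, F y - μ₀⟫)) ∂gam ι) + exp (64 * π ^ 2 * L ^ 4 * n)
        * ∫ y, exp (64 * π ^ 2 * L ^ 4 * ‖y‖ ^ 2) ∂gam ι) / 2)
      ≤ exp a * ((exp b + exp (64 * π ^ 2 * L ^ 4 * n) * exp (2 * (64 * π ^ 2 * L ^ 4) * n)) / 2) := by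
        gcongr
        · exact hμlin.2
        · exact hsq.2
    _ ≤ exp (a + b + c) := by
        rw [← exp_add, add_assoc a, exp_add a]
        refine mul_le_mul_of_nonneg_left ?_ (exp_pos _).le
        have h5 : exp b ≤ exp (b + c) := exp_le_exp.2 (by linarith)
        have h6 : exp (64 * π ^ 2 * L ^ 4 * n + 2 * (64 * π ^ 2 * L ^ 4) * n) ≤ exp (b + c) :=
          exp_le_exp.2 (by simp only [c]; linarith)
        linarith
    _ ≤ _ := exp_le_exp.2 (by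
        simp only [ha, b, c]
        nlinarith [mul_le_mul_of_nonneg_right hL1 (sq_nonneg ‖μ₀‖)])

/-- The exponential moment of the squared norm of a small Lipschitz field. -/
lemma lintegral_exp_sq_field {M : Eu ι → Sp d} (hM : ContDiff ℝ 1 M) {L ε : ℝ} (hL0 : 0 ≤ L)
    (hL : ∀ x, ‖fderiv ℝ M x‖ ≤ L) (hL1 : 36 * π ^ 2 * L ^ 2 ≤ 1)
    (hsq : ∫ x, ‖M x‖ ^ 2 ∂gam ι ≤ ε ^ 2) :
    ∫⁻ x, ENNReal.ofReal (exp (9 * ‖M x‖ ^ 2)) ∂gam ι
      ≤ ENNReal.ofReal (exp (18 * ε ^ 2 + 18 * π ^ 2 * L ^ 2)) := by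
  have hd := hM.differentiable one_ne_zero
  have hM2 := (memLp_two_of_fderiv_le hd hL).norm.integrable_sq
  have key : ∀ δ : ℝ, 0 < δ → ∫⁻ x, ENNReal.ofReal (exp (9 * ‖M x‖ ^ 2)) ∂gam ι
      ≤ ENNReal.ofReal (exp (18 * (ε ^ 2 + δ) + 18 * π ^ 2 * L ^ 2)) := by
    intro δ hδ
    set f : Eu ι → ℝ := fun x => √(‖M x‖ ^ 2 + δ) with hf
    have hpos : ∀ x, 0 < ‖M x‖ ^ 2 + δ := fun x => by positivity
    have hfC : ContDiff ℝ 1 f := ((hM.norm_sq ℝ).add contDiff_const).sqrt fun x => (hpos x).ne'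
    have hfn : ∀ x, ‖fderiv ℝ f x‖ ≤ L := fun x => by
      have h := (((hd x).hasFDerivAt.norm_sq).add_const δ).sqrt (hpos x).ne'
      rw [h.fderiv, norm_smul, two_smul, ← two_smul ℝ, norm_smul, Real.norm_eq_abs, Real.norm_eq_abs]
      have h2 : ‖(innerSL ℝ (M x)).comp (fderiv ℝ M x)‖ ≤ ‖M x‖ * L := by
        refine (ContinuousLinearMap.opNorm_comp_le _ _).trans ?_
        rw [innerSL_apply_norm]
        exact mul_le_mul_of_nonneg_left (hL x) (norm_nonneg _)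
      have h3 : ‖M x‖ ≤ √(‖M x‖ ^ 2 + δ) := le_sqrt_of_sq_le (by linarith)
      have h4 : 0 < √(‖M x‖ ^ 2 + δ) := sqrt_pos.2 (hpos x)
      rw [abs_of_pos (by positivity), abs_two]
      calc 1 / (2 * √(‖M x‖ ^ 2 + δ)) * (2 * ‖(innerSL ℝ (M x)).comp (fderiv ℝ M x)‖)
          ≤ 1 / (2 * √(‖M x‖ ^ 2 + δ)) * (2 * (√(‖M x‖ ^ 2 + δ) * L)) := by
            gcongr
            exact h2.trans (mul_le_mul_of_nonneg_right h3 hL0)
        _ = L := by field_simp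
    obtain ⟨hei, hle⟩ := lip_exp_sq hfC hfn (a := 18) (by norm_num) (by linarith)
    set m := ∫ y, f y ∂gam ι with hm
    have hm2 : m ^ 2 ≤ ε ^ 2 + δ := by
      have hf2 : MemLp f 2 (gam ι) := memLp_two_of_fderiv_le (hfC.differentiable one_ne_zero) hfn
      have hv := variance_nonneg f (gam ι)
      rw [variance_eq_sub hf2] at hv
      have e : ∫ x, (f ^ 2) x ∂gam ι = (∫ x, ‖M x‖ ^ 2 ∂gam ι) + δ := by
        simp only [Pi.pow_apply, hf, sq_sqrt (hpos _).le]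
        rw [integral_add hM2 (integrable_const _)]; simp
      rw [e, ← hm] at hv
      linarith
    calc ∫⁻ x, ENNReal.ofReal (exp (9 * ‖M x‖ ^ 2)) ∂gam ι
        ≤ ∫⁻ x, ENNReal.ofReal (exp (18 * (ε ^ 2 + δ)) * exp (18 * (f x - m) ^ 2)) ∂gam ι := by
          refine lintegral_mono fun x => ENNReal.ofReal_le_ofReal ?_
          rw [← exp_add, exp_le_exp]
          have : f x ^ 2 = ‖M x‖ ^ 2 + δ := sq_sqrt (hpos x).le
          nlinarith [sq_nonneg (f x - 2 * m)]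
      _ ≤ _ := by
          rw [← ofReal_integral_eq_lintegral_ofReal (hei.const_mul _)
            (ae_of_all _ fun x => by positivity), integral_const_mul, exp_add]
          refine ENNReal.ofReal_le_ofReal (mul_le_mul_of_nonneg_left (hle.trans_eq ?_) (exp_pos _).le)
          ring_nf
  have hlim : Filter.Tendsto (fun δ : ℝ => ENNReal.ofReal (exp (18 * (ε ^ 2 + δ) + 18 * π ^ 2 * L ^ 2)))
      (nhdsWithin 0 (Set.Ioi 0)) (nhds (ENNReal.ofReal (exp (18 * ε ^ 2 + 18 * π ^ 2 * L ^ 2)))) := by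
    have hc : Continuous fun δ : ℝ =>
        ENNReal.ofReal (exp (18 * (ε ^ 2 + δ) + 18 * π ^ 2 * L ^ 2)) :=
      ENNReal.continuous_ofReal.comp (by fun_prop)
    simpa using (hc.tendsto 0).mono_left nhdsWithin_le_nhds
  refine ge_of_tendsto hlim ?_
  filter_upwards [self_mem_nhdsWithin] with δ hδ using key δ hδ

end Vale.Agent.P347.Quarter
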