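import Vale.Agent.P347.Quarter.Absorb.Tilt
import Vale.Agent.P347.Quarter.Absorb.Shift

/-!
# P347: the density of a shifted Gaussian pair
-/

open MeasureTheory ProbabilityTheory Real
open scoped ENNReal RealInnerProductSpace

namespace Vale.Agent.P347.Quarter

variable {ι : Type} [Fintype ι] {d : ℕ} {r : Sp d → ℝ} {m : Sp d → Eu ι → Sp d}

/-- The average translation density of the shift `2 m`. -/
noncomputable def shiftK (m : Sp d → Eu ι → Sp d) (x g : Sp d) : ℝ≥0∞ :=
  ∫⁻ ω, ENNReal.ofReal (exp (⟪(2 : ℝ) • m x ω, g⟫ - ‖(2 : ℝ) • m x ω‖ ^ 2 / 2)) ∂gam ι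

/-- The density of the shifted pair against `gibbs r × γ`. -/
noncomputable def pairD (r : Sp d → ℝ) (m : Sp d → Eu ι → Sp d) (p : Sp d × Sp d) : ℝ≥0∞ :=
  tiltD r p.1 * shiftK m p.1 p.2

lemma measurable_shift_exp (hm : Continuous (Function.uncurry m)) :
    Measurable fun q : (Sp d × Sp d) × Eu ι => ENNReal.ofReal
      (exp (⟪(2 : ℝ) • m q.1.1 q.2, q.1.2⟫ - ‖(2 : ℝ) • m q.1.1 q.2‖ ^ 2 / 2)) := by
  have h : Continuous fun q : (Sp d × Sp d) × Eu ι => m q.1.1 q.2 :=
    hm.comp (continuous_fst.fst.prodMk continuous_snd)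
  exact ENNReal.measurable_ofReal.comp (by fun_prop : Continuous _).measurable

lemma measurable_shiftK (hm : Continuous (Function.uncurry m)) :
    Measurable fun p : Sp d × Sp d => shiftK m p.1 p.2 :=
  (measurable_shift_exp hm).lintegral_prod_right'

lemma measurable_pairD (hr : Continuous r) (hm : Continuous (Function.uncurry m)) :
    Measurable (pairD r m) :=
  ((measurable_tiltD hr).comp measurable_fst).mul (measurable_shiftK hm)

attribute [local irreducible] shiftK tiltD pairD gam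

/-- Integrating against `pairD` is averaging over the shift. -/
lemma lintegral_pairD (hr : Continuous r) (hm : Continuous (Function.uncurry m))
    (hi : Integrable (fun x => exp (-r x)) (gd d)) {F : Sp d × Sp d → ℝ≥0∞} (hF : Measurable F) :
    ∫⁻ p, pairD r m p * F p ∂(gibbs r).prod (gd d)
      = ∫⁻ q, F (q.1.1, q.1.2 + (2 : ℝ) • m q.1.1 q.2) ∂((gd d).prod (gd d)).prod (gam ι) := by
  have := isProbabilityMeasure_gibbs hi
  have hK := measurable_shiftK hm
  have hm' : Continuous fun q : (Sp d × Sp d) × Eu ι => m q.1.1 q.2 :=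
    hm.comp (continuous_fst.fst.prodMk continuous_snd)
  have hG : Measurable fun q : (Sp d × Sp d) × Eu ι =>
      F (q.1.1, q.1.2 + (2 : ℝ) • m q.1.1 q.2) :=
    hF.comp (by fun_prop : Continuous _).measurable
  rw [lintegral_prod (fun p => pairD r m p * F p) ((measurable_pairD hr hm).mul hF).aemeasurable]
  simp only [pairD, mul_assoc]
  have hKF : ∀ x, Measurable fun g => shiftK m x g * F (x, g) := fun x =>
    Measurable.mul (hK.comp measurable_prodMk_left) (hF.comp measurable_prodMk_left)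
  simp only [fun x => lintegral_const_mul (μ := gd d) (tiltD r x) (hKF x)]
  rw [lintegral_gibbs_tiltD hi, lintegral_prod _ hG.aemeasurable,
    lintegral_prod (fun p : Sp d × Sp d => ∫⁻ ω, F (p.1, p.2 + (2 : ℝ) • m p.1 ω) ∂gam ι)
      hG.lintegral_prod_right'.aemeasurable]
  refine lintegral_congr fun x => ?_
  have hx : Measurable fun p : Sp d × Eu ι => ((x, p.1), p.2) := by fun_prop
  have hmx : Continuous fun p : Sp d × Eu ι => m x p.2 :=
    hm.comp (continuous_const.prodMk continuous_snd)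
  have hFx : Measurable fun g : Sp d => F (x, g) := hF.comp measurable_prodMk_left
  have hGx : AEMeasurable (Function.uncurry fun g ω => F (x, g + (2 : ℝ) • m x ω))
      ((gd d).prod (gam ι)) := (hG.comp hx).aemeasurable
  rw [lintegral_lintegral_swap hGx]
  obtain ⟨e, he⟩ : ∃ e : Sp d → Eu ι → ℝ≥0∞, ∀ g ω, e g ω = ENNReal.ofReal
      (exp (⟪(2 : ℝ) • m x ω, g⟫ - ‖(2 : ℝ) • m x ω‖ ^ 2 / 2)) := ⟨_, fun _ _ => rfl⟩
  have hE : Measurable (Function.uncurry e) := by
    have h : Measurable fun p : Sp d × Eu ι => ENNReal.ofReal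
        (exp (⟪(2 : ℝ) • m x p.2, p.1⟫ - ‖(2 : ℝ) • m x p.2‖ ^ 2 / 2)) :=
      ENNReal.measurable_ofReal.comp (by fun_prop : Continuous _).measurable
    rw [show Function.uncurry e = _ from funext fun p => he p.1 p.2]
    exact h
  have hEF : AEMeasurable (Function.uncurry fun g ω => e g ω * F (x, g)) ((gd d).prod (gam ι)) :=
    (hE.mul (hFx.comp measurable_fst)).aemeasurable
  calc ∫⁻ g, shiftK m x g * F (x, g) ∂gd d
      = ∫⁻ g, ∫⁻ ω, e g ω * F (x, g) ∂gam ι ∂gd d := by
        refine lintegral_congr fun g => ?_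
        have hg : Measurable fun ω => e g ω := hE.comp measurable_prodMk_left
        rw [lintegral_mul_const _ hg]
        simp only [shiftK, he]
    _ = _ := by
        rw [lintegral_lintegral_swap hEF]
        refine lintegral_congr fun ω => ?_
        simp only [he]
        exact (lintegral_gd_shift ((2 : ℝ) • m x ω) hFx).symm

/-- The law of the shifted pair. -/
lemma map_shift_eq (hr : Continuous r) (hm : Continuous (Function.uncurry m))
    (hi : Integrable (fun x => exp (-r x)) (gd d)) :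
    (((gd d).prod (gd d)).prod (gam ι)).map
        (fun q => (q.1.1, q.1.2 + (2 : ℝ) • m q.1.1 q.2))
      = ((gibbs r).prod (gd d)).withDensity (pairD r m) := by
  have hm' : Continuous fun q : (Sp d × Sp d) × Eu ι => m q.1.1 q.2 :=
    hm.comp (continuous_fst.fst.prodMk continuous_snd)
  refine Measure.ext_of_lintegral _ fun F hF => ?_
  rw [lintegral_map hF (by fun_prop : Continuous _).measurable,
    lintegral_withDensity_eq_lintegral_mul _ (measurable_pairD hr hm) hF]
  exact (lintegral_pairD hr hm hi hF).symm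

/-- Two copies of the shift pair up. -/
lemma lintegral_shiftK_shift (hm : Continuous (Function.uncurry m)) (x : Sp d) :
    ∫⁻ g, ∫⁻ y, shiftK m x (g + (2 : ℝ) • m x y) ∂gam ι ∂gd d
      = ∫⁻ y, ∫⁻ ω, ENNReal.ofReal (exp (4 * ⟪m x ω, m x y⟫)) ∂gam ι ∂gam ι := by
  have hx : Measurable fun p : Sp d × Eu ι => ((x, p.1), p.2) := by fun_prop
  have hx' : Continuous fun p : Sp d × Eu ι => m x p.2 :=
    hm.comp (continuous_const.prodMk continuous_snd)
  have hsw : AEMeasurable (Function.uncurry fun g y => shiftK m x (g + (2 : ℝ) • m x y))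
      ((gd d).prod (gam ι)) :=
    ((measurable_shiftK hm).comp (by fun_prop : Continuous fun p : Sp d × Eu ι =>
      (x, p.1 + (2 : ℝ) • m x p.2)).measurable).aemeasurable
  rw [lintegral_lintegral_swap hsw]
  refine lintegral_congr fun y => ?_
  obtain ⟨e, he⟩ : ∃ e : Sp d → Eu ι → ℝ≥0∞, ∀ g ω, e g ω = ENNReal.ofReal
      (exp (⟪(2 : ℝ) • m x ω, g⟫ - ‖(2 : ℝ) • m x ω‖ ^ 2 / 2)) := ⟨_, fun _ _ => rfl⟩
  have hE : Measurable (Function.uncurry e) := by
    have h : Measurable fun p : Sp d × Eu ι => ENNReal.ofReal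
        (exp (⟪(2 : ℝ) • m x p.2, p.1⟫ - ‖(2 : ℝ) • m x p.2‖ ^ 2 / 2)) :=
      ENNReal.measurable_ofReal.comp (by fun_prop : Continuous _).measurable
    rw [show Function.uncurry e = _ from funext fun p => he p.1 p.2]
    exact h
  have hKx : Measurable fun g => shiftK m x g := (measurable_shiftK hm).comp measurable_prodMk_left
  rw [lintegral_gd_shift ((2 : ℝ) • m x y) hKx]
  have hK2 : ∀ g, shiftK m x g = ∫⁻ ω, e g ω ∂gam ι := fun g => by simp only [shiftK, he]
  have hgy : ∀ g, Measurable fun ω => e g ω := fun g => hE.comp measurable_prodMk_left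
  simp only [hK2, ← fun (g : Sp d) (c : ℝ≥0∞) => lintegral_const_mul (μ := gam ι) c (hgy g)]
  have hP : AEMeasurable (Function.uncurry fun g ω => ENNReal.ofReal
      (exp (⟪(2 : ℝ) • m x y, g⟫ - ‖(2 : ℝ) • m x y‖ ^ 2 / 2)) * e g ω) ((gd d).prod (gam ι)) := by
    have hu : Measurable fun p : Sp d × Eu ι => ENNReal.ofReal
        (exp (⟪(2 : ℝ) • m x y, p.1⟫ - ‖(2 : ℝ) • m x y‖ ^ 2 / 2)) :=
      ENNReal.measurable_ofReal.comp (by fun_prop : Continuous _).measurable
    exact (hu.mul hE).aemeasurable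
  rw [lintegral_lintegral_swap hP]
  refine lintegral_congr fun ω => ?_
  simp only [he]
  set u := (2 : ℝ) • m x y
  set v := (2 : ℝ) • m x ω
  have e' : ∀ g : Sp d, ENNReal.ofReal (exp (⟪u, g⟫ - ‖u‖ ^ 2 / 2)) *
      ENNReal.ofReal (exp (⟪v, g⟫ - ‖v‖ ^ 2 / 2))
      = ENNReal.ofReal (exp (-(‖u‖ ^ 2 / 2) - ‖v‖ ^ 2 / 2)) * ENNReal.ofReal (exp ⟪u + v, g⟫) :=
    fun g => by
      rw [← ENNReal.ofReal_mul (exp_pos _).le, ← ENNReal.ofReal_mul (exp_pos _).le, ← exp_add,
        ← exp_add, inner_add_left]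
      ring_nf
  simp only [e']
  have huv : Measurable fun g : Sp d => ENNReal.ofReal (exp ⟪u + v, g⟫) :=
    ENNReal.measurable_ofReal.comp (by fun_prop : Continuous _).measurable
  rw [lintegral_const_mul _ huv,
    lintegral_gd_exp_inner, ← ENNReal.ofReal_mul (exp_pos _).le, ← exp_add, norm_add_sq_real]
  congr 2
  simp only [u, v, real_inner_smul_left, real_inner_smul_right, real_inner_comm (m x ω) (m x y)]
  ring

/-- The pointwise mean inequality. -/
lemma tiltD_mul_exp_le (r : Sp d → ℝ) (x : Sp d) (t : ℝ) :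
    tiltD r x * ENNReal.ofReal (exp (4 * t))
      ≤ 2⁻¹ * tiltD r x ^ 2 + 2⁻¹ * ENNReal.ofReal (exp (8 * t)) := by
  set a := exp (r x) * ∫ z, exp (-r z) ∂gd d
  have ha : 0 ≤ a := mul_nonneg (exp_pos _).le (integral_nonneg fun _ => (exp_pos _).le)
  have hb : exp (8 * t) = exp (4 * t) ^ 2 := by rw [← exp_nat_mul]; push_cast; ring_nf
  rw [tiltD, hb, ← ENNReal.ofReal_mul ha, ← ENNReal.ofReal_pow ha,
    show (2⁻¹ : ℝ≥0∞) = ENNReal.ofReal 2⁻¹ by
      rw [ENNReal.ofReal_inv_of_pos two_pos, ENNReal.ofReal_ofNat],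
    ← ENNReal.ofReal_mul (by norm_num), ← ENNReal.ofReal_mul (by norm_num),
    ← ENNReal.ofReal_add (by positivity) (by positivity)]
  exact ENNReal.ofReal_le_ofReal (by nlinarith [sq_nonneg (a - exp (4 * t))])

/-- The second moment of the density of the shifted pair. -/
lemma lintegral_pairD_sq (hr : Continuous r) (hm : Continuous (Function.uncurry m))
    (hi : Integrable (fun x => exp (-r x)) (gd d)) {P Q : ℝ}
    (hP : ∫⁻ x, tiltD r x ^ 2 ∂gd d ≤ ENNReal.ofReal P)
    (hQ : ∫⁻ x, ∫⁻ y, ∫⁻ ω, ENNReal.ofReal (exp (8 * ⟪m x ω, m x y⟫)) ∂gam ι ∂gam ι ∂gd d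
      ≤ ENNReal.ofReal Q) (hP0 : 0 ≤ P) (hQ0 : 0 ≤ Q) :
    ∫⁻ p, pairD r m p ^ 2 ∂(gibbs r).prod (gd d) ≤ ENNReal.ofReal ((P + Q) / 2) := by
  have := isProbabilityMeasure_gibbs hi
  have hK := measurable_shiftK hm
  have hD := measurable_tiltD (r := r) hr
  simp only [pow_two]
  rw [lintegral_pairD hr hm hi (measurable_pairD hr hm)]
  have hm' : Continuous fun q : (Sp d × Sp d) × Eu ι => m q.1.1 q.2 :=
    hm.comp (continuous_fst.fst.prodMk continuous_snd)
  have hG : Measurable fun q : (Sp d × Sp d) × Eu ι =>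
      pairD r m (q.1.1, q.1.2 + (2 : ℝ) • m q.1.1 q.2) :=
    (measurable_pairD hr hm).comp (by fun_prop : Continuous _).measurable
  rw [lintegral_prod _ hG.aemeasurable, lintegral_prod _ hG.lintegral_prod_right'.aemeasurable]
  have h1 : ∀ x g, ∫⁻ y, pairD r m (x, g + (2 : ℝ) • m x y) ∂gam ι
      = tiltD r x * ∫⁻ y, shiftK m x (g + (2 : ℝ) • m x y) ∂gam ι := fun x g => by
    have hc : Continuous fun ω : Eu ι => m x ω := hm.comp (continuous_const.prodMk continuous_id)
    have hy : Measurable fun y : Eu ι => shiftK m x (g + (2 : ℝ) • m x y) :=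
      hK.comp (by fun_prop : Continuous fun y : Eu ι => (x, g + (2 : ℝ) • m x y)).measurable
    simp only [pairD]
    exact lintegral_const_mul _ hy
  simp only [h1]
  calc ∫⁻ x, ∫⁻ g, tiltD r x * ∫⁻ y, shiftK m x (g + (2 : ℝ) • m x y) ∂gam ι ∂gd d ∂gd d
      = ∫⁻ x, ∫⁻ y, ∫⁻ ω, tiltD r x * ENNReal.ofReal (exp (4 * ⟪m x ω, m x y⟫))
          ∂gam ι ∂gam ι ∂gd d := by
        refine lintegral_congr fun x => ?_
        have hc : Continuous fun ω : Eu ι => m x ω := hm.comp (continuous_const.prodMk continuous_id)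
        have hA : Measurable fun p : Sp d × Eu ι => shiftK m x (p.1 + (2 : ℝ) • m x p.2) :=
          hK.comp (by fun_prop : Continuous fun p : Sp d × Eu ι =>
            (x, p.1 + (2 : ℝ) • m x p.2)).measurable
        have hB : Measurable fun q : Eu ι × Eu ι => ENNReal.ofReal (exp (4 * ⟪m x q.2, m x q.1⟫)) :=
          ENNReal.measurable_ofReal.comp (by fun_prop : Continuous _).measurable
        rw [lintegral_const_mul _ hA.lintegral_prod_right', lintegral_shiftK_shift hm,
          ← lintegral_const_mul _ hB.lintegral_prod_right']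
        exact lintegral_congr fun y => (lintegral_const_mul _ (hB.comp measurable_prodMk_left)).symm
    _ ≤ ∫⁻ x, ∫⁻ y, ∫⁻ ω, (2⁻¹ * tiltD r x ^ 2
          + 2⁻¹ * ENNReal.ofReal (exp (8 * ⟪m x ω, m x y⟫))) ∂gam ι ∂gam ι ∂gd d := by
        gcongr with x y ω
        exact tiltD_mul_exp_le r x _
    _ = 2⁻¹ * (∫⁻ x, tiltD r x ^ 2 ∂gd d) + 2⁻¹ *
          ∫⁻ x, ∫⁻ y, ∫⁻ ω, ENNReal.ofReal (exp (8 * ⟪m x ω, m x y⟫)) ∂gam ι ∂gam ι ∂gd d := by
        have hH8 : ∀ x y, Measurable fun ω => ENNReal.ofReal (exp (8 * ⟪m x ω, m x y⟫)) := fun x y => by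
          have hc : Continuous fun ω : Eu ι => m x ω := hm.comp (continuous_const.prodMk continuous_id)
          exact ENNReal.measurable_ofReal.comp (by fun_prop : Continuous _).measurable
        have h2 : ∀ x y, ∫⁻ ω, (2⁻¹ * tiltD r x ^ 2
            + 2⁻¹ * ENNReal.ofReal (exp (8 * ⟪m x ω, m x y⟫))) ∂gam ι
            = 2⁻¹ * tiltD r x ^ 2 + 2⁻¹ * ∫⁻ ω, ENNReal.ofReal (exp (8 * ⟪m x ω, m x y⟫)) ∂gam ι := by
          intro x y
          rw [lintegral_add_left measurable_const, lintegral_const, measure_univ, mul_one,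
            lintegral_const_mul _ (hH8 x y)]
        simp only [h2]
        have hI : ∀ x, Measurable fun y =>
            ∫⁻ ω, ENNReal.ofReal (exp (8 * ⟪m x ω, m x y⟫)) ∂gam ι := fun x =>
          by
          have hc : Continuous fun ω : Eu ι => m x ω := hm.comp (continuous_const.prodMk continuous_id)
          have h : Measurable fun q : Eu ι × Eu ι =>
              ENNReal.ofReal (exp (8 * ⟪m x q.2, m x q.1⟫)) :=
            ENNReal.measurable_ofReal.comp (by fun_prop : Continuous _).measurable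
          exact h.lintegral_prod_right'
        have h3 : ∀ x, ∫⁻ y, (2⁻¹ * tiltD r x ^ 2
            + 2⁻¹ * ∫⁻ ω, ENNReal.ofReal (exp (8 * ⟪m x ω, m x y⟫)) ∂gam ι) ∂gam ι
            = 2⁻¹ * tiltD r x ^ 2 + 2⁻¹ *
              ∫⁻ y, ∫⁻ ω, ENNReal.ofReal (exp (8 * ⟪m x ω, m x y⟫)) ∂gam ι ∂gam ι := fun x => by
          rw [lintegral_add_left measurable_const, lintegral_const, measure_univ, mul_one,
            lintegral_const_mul _ (hI x)]
        simp only [h3]
        rw [lintegral_add_left ((hD.pow_const 2).const_mul _), lintegral_const_mul _ (hD.pow_const 2)]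
        congr 1
        have hJ : Measurable fun p : Sp d × Eu ι =>
            ∫⁻ ω, ENNReal.ofReal (exp (8 * ⟪m p.1 ω, m p.1 p.2⟫)) ∂gam ι :=
          by
            have ha : Continuous fun q : (Sp d × Eu ι) × Eu ι => m q.1.1 q.2 :=
              hm.comp (continuous_fst.fst.prodMk continuous_snd)
            have hb : Continuous fun q : (Sp d × Eu ι) × Eu ι => m q.1.1 q.1.2 :=
              hm.comp (continuous_fst.fst.prodMk continuous_fst.snd)
            have h : Measurable fun q : (Sp d × Eu ι) × Eu ι =>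
                ENNReal.ofReal (exp (8 * ⟪m q.1.1 q.2, m q.1.1 q.1.2⟫)) :=
              ENNReal.measurable_ofReal.comp (by fun_prop : Continuous _).measurable
            exact h.lintegral_prod_right'
        rw [lintegral_const_mul _ hJ.lintegral_prod_right']
    _ ≤ 2⁻¹ * ENNReal.ofReal P + 2⁻¹ * ENNReal.ofReal Q := by gcongr
    _ = ENNReal.ofReal ((P + Q) / 2) := by
        rw [← mul_add, ← ENNReal.ofReal_add hP0 hQ0,
          show (2⁻¹ : ℝ≥0∞) = ENNReal.ofReal 2⁻¹ by
            rw [ENNReal.ofReal_inv_of_pos two_pos, ENNReal.ofReal_ofNat],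
          ← ENNReal.ofReal_mul (by norm_num)]
        ring_nf

end Vale.Agent.P347.Quarter
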