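import Vale.Agent.P347.Quarter.Gauss
import Vale.Agent.P347.Quarter.Absorb.ChiPair

/-!
# P347: the density of the Gaussian law against a small tilt of it
-/

open MeasureTheory ProbabilityTheory Real
open scoped ENNReal RealInnerProductSpace

namespace Vale.Agent.P347.Quarter

variable {d : ℕ} {r : Sp d → ℝ}

/-- The density of the Gaussian law against `gibbs r`. -/
noncomputable def tiltD (r : Sp d → ℝ) (x : Sp d) : ℝ≥0∞ :=
  ENNReal.ofReal (exp (r x) * ∫ y, exp (-r y) ∂gd d)

lemma measurable_tiltD (hr : Continuous r) : Measurable (tiltD r) :=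
  ENNReal.measurable_ofReal.comp (by fun_prop : Continuous _).measurable

lemma isProbabilityMeasure_gibbs (hi : Integrable (fun x => exp (-r x)) (gd d)) :
    IsProbabilityMeasure (gibbs r) :=
  isProbabilityMeasure_tilted hi

/-- The tilt cancels against its density. -/
lemma lintegral_gibbs_tiltD (hi : Integrable (fun x => exp (-r x)) (gd d)) (F : Sp d → ℝ≥0∞) :
    ∫⁻ x, tiltD r x * F x ∂gibbs r = ∫⁻ x, F x ∂gd d := by
  rw [gibbs, lintegral_tilted]
  refine lintegral_congr fun x => ?_
  have hZ : 0 < ∫ y, exp (-r y) ∂gd d := integral_exp_pos hi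
  rw [← mul_assoc, tiltD, ← ENNReal.ofReal_mul (by positivity)]
  rw [div_mul_eq_mul_div, ← mul_assoc, ← exp_add, neg_add_cancel, exp_zero, one_mul, div_self hZ.ne',
    ENNReal.ofReal_one, one_mul]

/-- `gibbs r` weighted by the density is the Gaussian law. -/
lemma gibbs_withDensity (hi : Integrable (fun x => exp (-r x)) (gd d)) :
    (gibbs r).withDensity (tiltD r) = gd d := by
  ext s hs
  rw [withDensity_apply _ hs, ← lintegral_indicator hs]
  calc ∫⁻ x, s.indicator (tiltD r) x ∂gibbs r = ∫⁻ x, tiltD r x * s.indicator 1 x ∂gibbs r :=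
        lintegral_congr fun x => by by_cases hx : x ∈ s <;> simp [hx]
    _ = _ := by rw [lintegral_gibbs_tiltD hi, lintegral_indicator_one hs]

/-- The second moment of the density. -/
lemma lintegral_gd_tiltD (hi' : Integrable (fun x => exp (r x)) (gd d)) :
    ∫⁻ x, tiltD r x ∂gd d
      = ENNReal.ofReal ((∫ x, exp (r x) ∂gd d) * ∫ x, exp (-r x) ∂gd d) := by
  have h0 : 0 ≤ ∫ y, exp (-r y) ∂gd d := integral_nonneg fun _ => (exp_pos _).le
  rw [← integral_mul_const, ofReal_integral_eq_lintegral_ofReal (hi'.mul_const _)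
    (ae_of_all _ fun x => by positivity)]
  rfl

/-- `exp x - 1 ≤ 2 x` on `[0, 1]`. -/
lemma exp_sub_one_le_two_mul {x : ℝ} (h0 : 0 ≤ x) (h1 : x ≤ 1) : exp x - 1 ≤ 2 * x := by
  have h := Real.abs_exp_sub_one_le (x := x) (by rw [abs_of_nonneg h0]; exact h1)
  rw [abs_of_nonneg h0] at h
  exact (le_abs_self _).trans h

end Vale.Agent.P347.Quarter
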